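import Vale.Agent.P101.Basic

/-! An element whose commutators generate everything has far apart spectral cut-offs that do. -/

noncomputable section

namespace Vale.Agent.P101.Stage2

variable {B : Type*} [CStarAlgebra B]

theorem norm_one_le : ‖(1 : B)‖ ≤ 1 := by
  rcases subsingleton_or_nontrivial B with h | h
  · simp [Subsingleton.elim (1 : B) 0]
  · exact CStarRing.norm_one.le

theorem abs_le_of_mem_spectrum {T : B} {x : ℝ} (hx : x ∈ spectrum ℝ T) : |x| ≤ ‖T‖ := by
  have h := spectrum.norm_le_norm_mul_of_mem hx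
  rw [Real.norm_eq_abs] at h
  exact h.trans (mul_le_of_le_one_right (norm_nonneg _) norm_one_le)

/-- A sum of self-adjoint elements with zero products is no larger than its largest term. -/
theorem norm_sum_le_of_orth_self {ι : Type*} (s : Finset ι) (Z : ι → B)
    (hsa : ∀ i ∈ s, IsSelfAdjoint (Z i)) (h : ∀ i ∈ s, ∀ j ∈ s, i ≠ j → Z i * Z j = 0)
    {c : ℝ} (hc : 0 ≤ c) (hZ : ∀ i ∈ s, ‖Z i‖ ≤ c) : ‖∑ i ∈ s, Z i‖ ≤ c := by
  classical
  have hstep : ∀ (k : ℕ) (W : ι → B), (∀ i ∈ s, IsSelfAdjoint (W i)) →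
      (∀ i ∈ s, ∀ j ∈ s, i ≠ j → W i * W j = 0) → ∀ d : ℝ, 0 ≤ d → (∀ i ∈ s, ‖W i‖ ≤ d) →
      ‖∑ i ∈ s, W i‖ ^ (2 ^ k) ≤ s.card * d ^ (2 ^ k) := by
    intro k
    induction k with
    | zero =>
      intro W _ _ d _ hW
      simp only [pow_zero, pow_one]
      exact (norm_sum_le _ _).trans ((Finset.sum_le_sum hW).trans (by simp))
    | succ k ih =>
      intro W hWsa hW0 d hd hW
      have hsq : (∑ i ∈ s, W i) * (∑ i ∈ s, W i) = ∑ i ∈ s, W i * W i := by
        rw [Finset.sum_mul_sum]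
        exact Finset.sum_congr rfl fun i hi =>
          Finset.sum_eq_single_of_mem i hi fun j hj hne => hW0 i hi j hj hne.symm
      have hn : ‖∑ i ∈ s, W i‖ ^ 2 = ‖∑ i ∈ s, W i * W i‖ := by
        have hS : IsSelfAdjoint (∑ i ∈ s, W i) := isSelfAdjoint_sum s hWsa
        rw [← hsq, sq, ← CStarRing.norm_star_mul_self, hS.star_eq]
      have := ih (fun i => W i * W i)
        (fun i hi => (IsSelfAdjoint.commute_iff (hWsa i hi) (hWsa i hi)).1 (Commute.refl _))
        (fun i hi j hj hne => by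
          rw [mul_assoc, ← mul_assoc (W i) (W j), hW0 i hi j hj hne, zero_mul, mul_zero])
        (d ^ 2) (by positivity) (fun i hi => by
          rw [sq]; exact (norm_mul_le _ _).trans (mul_le_mul (hW i hi) (hW i hi) (norm_nonneg _) hd))
      rwa [← hn, ← pow_mul, ← pow_mul, ← pow_succ'] at this
  by_contra hlt
  simp only [not_le] at hlt
  set n := ‖∑ i ∈ s, Z i‖
  have hn : 0 < n := lt_of_le_of_lt hc hlt
  have hr : c / n < 1 := (div_lt_one hn).2 hlt
  obtain ⟨m, hm⟩ := exists_pow_lt_of_lt_one (show (0 : ℝ) < 1 / (s.card + 1) by positivity) hr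
  have h1 := hstep m Z hsa h c hc hZ
  have h2 : (c / n) ^ 2 ^ m ≤ (c / n) ^ m :=
    pow_le_pow_of_le_one (div_nonneg hc hn.le) hr.le Nat.lt_two_pow_self.le
  have h3 : 1 ≤ (s.card : ℝ) * (c / n) ^ 2 ^ m := by
    rw [div_pow, ← mul_div_assoc, le_div_iff₀ (pow_pos hn _), one_mul]
    exact h1
  have h4 : (s.card : ℝ) * (1 / (s.card + 1)) < 1 := by
    rw [mul_one_div, div_lt_one (by positivity)]
    linarith
  have h5 := mul_le_mul_of_nonneg_left (h2.trans hm.le) (Nat.cast_nonneg (α := ℝ) s.card)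
  linarith

/-- A sum of elements with orthogonal ranges and supports is no larger than its largest term. -/
theorem norm_sum_le_of_orth {ι : Type*} (s : Finset ι) (X : ι → B)
    (hl : ∀ i ∈ s, ∀ j ∈ s, i ≠ j → star (X i) * X j = 0)
    (hr : ∀ i ∈ s, ∀ j ∈ s, i ≠ j → X i * star (X j) = 0)
    {c : ℝ} (hc : 0 ≤ c) (hX : ∀ i ∈ s, ‖X i‖ ≤ c) : ‖∑ i ∈ s, X i‖ ≤ c := by
  classical
  have key : star (∑ i ∈ s, X i) * ∑ i ∈ s, X i = ∑ i ∈ s, star (X i) * X i := by
    rw [star_sum, Finset.sum_mul_sum]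
    exact Finset.sum_congr rfl fun i hi =>
      Finset.sum_eq_single_of_mem i hi fun j hj hne => hl i hi j hj hne.symm
  have h := norm_sum_le_of_orth_self s (fun i => star (X i) * X i)
    (fun i _ => IsSelfAdjoint.star_mul_self _) (fun i hi j hj hne => by
      rw [mul_assoc, ← mul_assoc (X i), hr i hi j hj hne, zero_mul, mul_zero])
    (sq_nonneg c) (fun i hi => by
      rw [CStarRing.norm_star_mul_self, ← sq]
      exact pow_le_pow_left₀ (norm_nonneg _) (hX i hi) 2)
  rw [← key, CStarRing.norm_star_mul_self, ← sq] at h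
  exact (sq_le_sq₀ (norm_nonneg _) hc).1 h

/-- The tent of width `h` at `s h`. -/
def bump (h : ℝ) (s : ℤ) (x : ℝ) : ℝ := max 0 (1 - |x / h - s|)

/-- A cut-off equal to one on the support of the tent. -/
def wide (h : ℝ) (s : ℤ) (x : ℝ) : ℝ := min 1 (max 0 (2 - |x / h - s|))

@[fun_prop]
theorem continuous_bump (h : ℝ) (s : ℤ) : Continuous (bump h s) := by
  unfold bump; fun_prop

@[fun_prop]
theorem continuous_wide (h : ℝ) (s : ℤ) : Continuous (wide h s) := by
  unfold wide; fun_prop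

theorem abs_bump_le (h : ℝ) (s : ℤ) (x : ℝ) : |bump h s x| ≤ 1 := by
  rw [bump, abs_of_nonneg (le_max_left _ _)]
  exact max_le zero_le_one (by linarith [abs_nonneg (x / h - s)])

theorem abs_wide_le (h : ℝ) (s : ℤ) (x : ℝ) : |wide h s x| ≤ 1 := by
  rw [wide, abs_of_nonneg (le_min zero_le_one (le_max_left _ _))]
  exact min_le_left _ _

theorem bump_support {h : ℝ} (hh : 0 < h) {s : ℤ} {x : ℝ} (hx : bump h s x ≠ 0) :
    |x - s * h| < h := by
  have h1 : |x / h - s| < 1 := by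
    by_contra hn
    exact hx (max_eq_left (by linarith [not_lt.1 hn]))
  have e : x - s * h = (x / h - s) * h := by field_simp
  rw [e, abs_mul, abs_of_pos hh]
  nlinarith

theorem abs_wide_mul_le {h : ℝ} (hh : 0 < h) (s : ℤ) (x : ℝ) :
    |(x - s * h) * wide h s x| ≤ 2 * h := by
  by_cases hw : wide h s x = 0
  · simp [hw, hh.le]
  have h1 : |x / h - s| ≤ 2 := by
    by_contra hn
    apply hw
    rw [wide, max_eq_left (by linarith [not_le.1 hn]), min_eq_right zero_le_one]
  have e : x - s * h = (x / h - s) * h := by field_simp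
  rw [abs_mul, e, abs_mul, abs_of_pos hh]
  calc |x / h - s| * h * |wide h s x| ≤ 2 * h * 1 := by
        gcongr
        exact abs_wide_le h s x
    _ = 2 * h := mul_one _

theorem bump_mul_wide (h : ℝ) (s : ℤ) (x : ℝ) : bump h s x * wide h s x = bump h s x := by
  rcases lt_or_ge |x / h - s| 1 with h1 | h1
  · rw [wide, max_eq_right (by linarith), min_eq_left (by linarith), mul_one]
  · rw [bump, max_eq_left (by linarith), zero_mul]

theorem sum_bump {h : ℝ} (hh : 0 < h) (L : ℕ) {x : ℝ} (hx : |x| ≤ L * h) :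
    ∑ s ∈ Finset.Icc (-(L : ℤ)) L, bump h s x = 1 := by
  set y := x / h
  have hy : |y| ≤ L := by
    rw [abs_div, abs_of_pos hh, div_le_iff₀ hh]; exact hx
  have h1 := Int.floor_le y
  have h2 := Int.lt_floor_add_one y
  set m := ⌊y⌋
  have hb : ∀ s : ℤ, s ≠ m → s ≠ m + 1 → bump h s x = 0 := by
    intro s hs hs'
    refine max_eq_left ?_
    rcases lt_or_gt_of_ne hs with hlt | hgt
    · have : (s : ℝ) + 1 ≤ m := by exact_mod_cast hlt
      linarith [le_abs_self (y - s)]
    · have : (m : ℝ) + 2 ≤ s := by exact_mod_cast (by omega : m + 2 ≤ s)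
      linarith [neg_abs_le (y - s)]
  have hm : bump h m x = 1 - (y - m) := by
    rw [bump, abs_of_nonneg (by linarith), max_eq_right (by linarith)]
  have hm1 : bump h (m + 1) x = y - m := by
    rw [bump, Int.cast_add, Int.cast_one, abs_of_nonpos (by linarith), max_eq_right (by linarith)]
    ring
  obtain ⟨hl, hu⟩ := abs_le.1 hy
  have hlo : -(L : ℤ) ≤ m := Int.le_floor.2 (by push_cast; exact hl)
  have hhi : m ≤ L := Int.floor_le_iff.2 (by push_cast; linarith)
  rcases eq_or_lt_of_le hhi with heq | hlt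
  · have hym : y = m := le_antisymm (by rw [heq]; push_cast; exact hu) h1
    rw [Finset.sum_eq_single_of_mem m (Finset.mem_Icc.2 ⟨hlo, hhi⟩), hm, hym]
    · ring
    · intro s hs hne
      rcases eq_or_ne s (m + 1) with rfl | h'
      · rw [hm1, hym, sub_self]
      · exact hb s hne h'
  · rw [Finset.sum_eq_add_of_mem m (m + 1) (Finset.mem_Icc.2 ⟨hlo, hhi⟩)
      (Finset.mem_Icc.2 ⟨by omega, by omega⟩) (by omega) fun s _ hs => hb s hs.1 hs.2, hm, hm1]
    ring

variable (T : B)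

/-- The tent applied to `T`. -/
def cut (h : ℝ) (s : ℤ) : B := cfc (bump h s) T

theorem norm_cut_le (h : ℝ) (s : ℤ) : ‖cut T h s‖ ≤ 1 :=
  norm_cfc_le zero_le_one fun x _ => by rw [Real.norm_eq_abs]; exact abs_bump_le h s x

theorem cut_self (h : ℝ) (s : ℤ) : IsSelfAdjoint (cut T h s) := cfc_predicate _ _

theorem cut_commute (h : ℝ) (s : ℤ) : Commute T (cut T h s) := (Commute.refl T).cfc_real _ |>.symm

variable {T} (hT : IsSelfAdjoint T)
include hT

omit hT in
theorem cut_mul_cut {h k : ℝ} (hh : 0 < h) (hk : 0 < k) {s p : ℤ}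
    (hne : cut T h s * cut T k p ≠ 0) : |(s : ℝ) * h - p * k| < h + k := by
  by_contra hlt
  refine hne ?_
  rw [cut, cut, ← cfc_mul _ _ T, ← cfc_zero ℝ T]
  refine cfc_congr fun x _ => ?_
  by_contra hx
  obtain ⟨h1, h2⟩ := mul_ne_zero_iff.1 hx
  have hab := abs_sub_le ((s : ℝ) * h) x (p * k)
  rw [abs_sub_comm ((s : ℝ) * h) x] at hab
  linarith [bump_support hh h1, bump_support hk h2, not_lt.1 hlt]

omit hT in
theorem cut_orth {h : ℝ} (hh : 0 < h) {s s' : ℤ} (h2 : 2 ≤ |s - s'|) :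
    cut T h s * cut T h s' = 0 := by
  by_contra hne
  have := cut_mul_cut hh hh hne
  rw [← sub_mul, abs_mul, abs_of_pos hh] at this
  have h2' : (2 : ℝ) ≤ |(s : ℝ) - s'| := by exact_mod_cast h2
  nlinarith

theorem norm_shift_cut_le {h : ℝ} (hh : 0 < h) (σ : ℝ) (s : ℤ) :
    ‖(T - algebraMap ℝ B σ) * cut T h s‖ ≤ |(s : ℝ) * h - σ| + h := by
  have e : (T - algebraMap ℝ B σ) * cut T h s = cfc (fun x => (x - σ) * bump h s x) T := by
    rw [cfc_mul (fun x => x - σ) (bump h s) T, cfc_sub (fun x => x) (fun _ => σ) T, cfc_id' ℝ T,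
      cfc_const σ T, cut]
  rw [e]
  refine norm_cfc_le (add_nonneg (abs_nonneg _) hh.le) fun x _ => ?_
  rw [Real.norm_eq_abs, abs_mul]
  by_cases hx : bump h s x = 0
  · simpa [hx] using add_nonneg (abs_nonneg ((s : ℝ) * h - σ)) hh.le
  · have h3 : |x - σ| ≤ |x - s * h| + |(s : ℝ) * h - σ| := abs_sub_le x _ σ
    calc |x - σ| * |bump h s x| ≤ |x - σ| * 1 :=
          mul_le_mul_of_nonneg_left (abs_bump_le h s x) (abs_nonneg _)
      _ ≤ |(s : ℝ) * h - σ| + h := by linarith [bump_support hh hx]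

theorem sum_cut {h : ℝ} (hh : 0 < h) {L : ℕ} (hL : ‖T‖ ≤ L * h) :
    ∑ s ∈ Finset.Icc (-(L : ℤ)) L, cut T h s = 1 := by
  unfold cut
  rw [← cfc_sum (fun s => bump h s) T]
  exact (cfc_congr fun x hx => by
    simp only [Finset.sum_apply]
    exact sum_bump hh L ((abs_le_of_mem_spectrum hx).trans hL)).trans (cfc_one ℝ T)

theorem norm_band_le {h : ℝ} (hh : 0 < h) (d : B) {s t : ℤ} (hst : |t - s| ≤ 3) :
    ‖cut T h s * (T * d - d * T) * cut T h t‖ ≤ 5 * h * ‖d‖ := by
  set σ := algebraMap ℝ B ((s : ℝ) * h)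
  have e : T * d - d * T = (T - σ) * d - d * (T - σ) := by
    rw [sub_mul, mul_sub, (Algebra.commutes ((s : ℝ) * h) d : σ * d = d * σ)]
    abel
  have hc : cut T h s * (T - σ) = (T - σ) * cut T h s := by
    rw [mul_sub, sub_mul, (cut_commute T h s).eq, Algebra.commutes]
  rw [e, mul_sub, sub_mul, ← mul_assoc (cut T h s) (T - σ) d, hc,
    ← mul_assoc (cut T h s) d (T - σ), mul_assoc (cut T h s * d) (T - σ)]
  have h3 : |(t : ℝ) - s| ≤ 3 := by exact_mod_cast hst
  have b1 := norm_shift_cut_le hT hh ((s : ℝ) * h) s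
  have b2 := norm_shift_cut_le hT hh ((s : ℝ) * h) t
  rw [sub_self, abs_zero, zero_add] at b1
  rw [← sub_mul, abs_mul, abs_of_pos hh] at b2
  have a1 : ‖(T - σ) * cut T h s * d * cut T h t‖ ≤ h * ‖d‖ :=
    calc ‖(T - σ) * cut T h s * d * cut T h t‖
        ≤ ‖(T - σ) * cut T h s‖ * ‖d‖ * ‖cut T h t‖ :=
          (norm_mul_le _ _).trans (mul_le_mul_of_nonneg_right (norm_mul_le _ _) (norm_nonneg _))
      _ ≤ h * ‖d‖ * 1 := by gcongr; exact norm_cut_le T h t
      _ = h * ‖d‖ := mul_one _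
  have a2 : ‖cut T h s * d * ((T - σ) * cut T h t)‖ ≤ 4 * h * ‖d‖ :=
    calc ‖cut T h s * d * ((T - σ) * cut T h t)‖
        ≤ ‖cut T h s‖ * ‖d‖ * ‖(T - σ) * cut T h t‖ :=
          (norm_mul_le _ _).trans (mul_le_mul_of_nonneg_right (norm_mul_le _ _) (norm_nonneg _))
      _ ≤ 1 * ‖d‖ * (4 * h) := by
          gcongr
          · exact norm_cut_le T h s
          · exact b2.trans (by nlinarith)
      _ = 4 * h * ‖d‖ := by ring
  linarith [norm_sub_le ((T - σ) * cut T h s * d * cut T h t)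
    (cut T h s * d * ((T - σ) * cut T h t))]

/-- The diagonal band of a commutator is small. -/
theorem norm_near_le {h : ℝ} (hh : 0 < h) (d : B) (I : Finset ℤ) :
    ‖∑ st ∈ (I ×ˢ I).filter (fun st => |st.2 - st.1| ≤ 3),
      cut T h st.1 * (T * d - d * T) * cut T h st.2‖ ≤ 70 * h * ‖d‖ := by
  classical
  set P := (I ×ˢ I).filter fun st : ℤ × ℤ => |st.2 - st.1| ≤ 3
  set key : ℤ × ℤ → ℤ × ℤ := fun st => (st.2 - st.1, st.1 % 2)
  set K := Finset.Icc (-3 : ℤ) 3 ×ˢ Finset.Icc (0 : ℤ) 1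
  have hmaps : ∀ st ∈ P, key st ∈ K := fun st hst => by
    obtain ⟨-, h3⟩ := Finset.mem_filter.1 hst
    have := abs_le.1 h3
    simp only [K, key, Finset.mem_product, Finset.mem_Icc]
    omega
  rw [← Finset.sum_fiberwise_of_maps_to hmaps]
  have hblock : ∀ k ∈ K, ‖∑ st ∈ P.filter (fun st => key st = k),
      cut T h st.1 * (T * d - d * T) * cut T h st.2‖ ≤ 5 * h * ‖d‖ := by
    intro k _
    have hfar : ∀ st ∈ P.filter (fun st => key st = k),
        ∀ st' ∈ P.filter (fun st => key st = k), st ≠ st' →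
        2 ≤ |st.1 - st'.1| ∧ 2 ≤ |st.2 - st'.2| := by
      intro st hst st' hst' hne
      have e := (Finset.mem_filter.1 hst).2.trans (Finset.mem_filter.1 hst').2.symm
      simp only [key, Prod.mk.injEq] at e
      have hne' : st.1 ≠ st'.1 := fun he => hne (Prod.ext he (by omega))
      simp only [le_abs']
      omega
    refine norm_sum_le_of_orth _ _ (fun st hst st' hst' hne => ?_)
      (fun st hst st' hst' hne => ?_) (by positivity) fun st hst =>
        norm_band_le hT hh d (Finset.mem_filter.1 (Finset.mem_filter.1 hst).1).2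
    · simp only [star_mul, (cut_self T h _).star_eq, mul_assoc]
      rw [← mul_assoc (cut T h st.1) (cut T h st'.1), cut_orth hh (hfar st hst st' hst' hne).1]
      simp
    · simp only [star_mul, (cut_self T h _).star_eq, mul_assoc]
      rw [← mul_assoc (cut T h st.2) (cut T h st'.2), cut_orth hh (hfar st hst st' hst' hne).2]
      simp
  refine (norm_sum_le _ _).trans ((Finset.sum_le_sum hblock).trans (le_of_eq ?_))
  simp [K]
  ring

/-- Far apart cut-offs generate everything, at every small scale. -/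
theorem full_far (hfull : Full {x | ∃ d, T * d - d * T = x}) :
    ∃ h : ℝ, 0 < h ∧ h ≤ 1 ∧ ∀ k : ℝ, 0 < k → k ≤ h / 2 →
      Full {x | ∃ (p q : ℤ) (d : B), |(p : ℝ) * k| ≤ ‖T‖ + 1 ∧ |(q : ℝ) * k| ≤ ‖T‖ + 1 ∧
        h ≤ |(p : ℝ) * k - q * k| ∧ cut T k p * d * cut T k q = x} := by
  obtain ⟨n, a, z, b, hz, h1⟩ := full_exists_sum hfull
  choose d hd using hz
  set C := ∑ i, ‖a i‖ * (70 * ‖d i‖) * ‖b i‖
  have hC : 0 ≤ C := Finset.sum_nonneg fun i _ => by positivity
  refine ⟨1 / (C + 2), by positivity, (div_le_one (by positivity)).2 (by linarith), ?_⟩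
  set h := 1 / (C + 2) with hh
  have h0 : 0 < h := by positivity
  intro k hk hkh
  have hh1 : h ≤ 1 := (div_le_one (by positivity)).2 (by linarith)
  set G := {x | ∃ (p q : ℤ) (d : B), |(p : ℝ) * k| ≤ ‖T‖ + 1 ∧ |(q : ℝ) * k| ≤ ‖T‖ + 1 ∧
    h ≤ |(p : ℝ) * k - q * k| ∧ cut T k p * d * cut T k q = x}
  set J := TwoSidedIdeal.span G
  set I := Finset.Icc (-(⌈‖T‖ / h⌉₊ : ℤ)) ⌈‖T‖ / h⌉₊
  set N := ⌈‖T‖ / k⌉₊
  have hI : ∑ s ∈ I, cut T h s = 1 :=
    sum_cut hT h0 ((div_le_iff₀ h0).1 (Nat.le_ceil _))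
  have hI' : ∑ p ∈ Finset.Icc (-(N : ℤ)) N, cut T k p = 1 :=
    sum_cut hT hk ((div_le_iff₀ hk).1 (Nat.le_ceil _))
  have hN : (N : ℝ) * k ≤ ‖T‖ + 1 := by
    have h2 := (Nat.ceil_lt_add_one (show 0 ≤ ‖T‖ / k by positivity)).le
    have e : ‖T‖ / k * k = ‖T‖ := by field_simp
    calc (N : ℝ) * k ≤ (‖T‖ / k + 1) * k := mul_le_mul_of_nonneg_right h2 hk.le
      _ ≤ ‖T‖ + 1 := by rw [add_mul, e, one_mul]; linarith
  have hp : ∀ p ∈ Finset.Icc (-(N : ℤ)) N, |(p : ℝ) * k| ≤ ‖T‖ + 1 := fun p hp => by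
    have hpN : |(p : ℝ)| ≤ N := by
      exact_mod_cast abs_le.2 (Finset.mem_Icc.1 hp)
    rw [abs_mul, abs_of_pos hk]
    exact (mul_le_mul_of_nonneg_right hpN hk.le).trans hN
  have hfar : ∀ (e : B), ∀ st ∈ (I ×ˢ I).filter (fun st => ¬|st.2 - st.1| ≤ 3),
      cut T h st.1 * (T * e - e * T) * cut T h st.2 ∈ J := by
    intro e st hst
    have h4 : (4 : ℝ) ≤ |(st.2 : ℝ) - st.1| := by
      have h4 : (4 : ℤ) ≤ |st.2 - st.1| := by
        have := (Finset.mem_filter.1 hst).2
        omega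
      exact_mod_cast h4
    have hexp : cut T h st.1 * (T * e - e * T) * cut T h st.2 =
        ∑ p ∈ Finset.Icc (-(N : ℤ)) N, ∑ q ∈ Finset.Icc (-(N : ℤ)) N,
          cut T h st.1 * cut T k p * (T * e - e * T) * (cut T k q * cut T h st.2) := by
      simp_rw [← Finset.mul_sum, ← Finset.sum_mul, ← Finset.mul_sum, hI', mul_one, one_mul]
    rw [hexp]
    refine sum_mem fun p hp' => sum_mem fun q hq' => ?_
    by_cases hsp : cut T h st.1 * cut T k p = 0
    · simp [hsp]
    by_cases htq : cut T k q * cut T h st.2 = 0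
    · simp [htq]
    have l1 := cut_mul_cut h0 hk hsp
    have l2 := cut_mul_cut hk h0 htq
    have hgap : h ≤ |(p : ℝ) * k - q * k| := by
      have e1 : ((st.2 : ℝ) - st.1) * h
          = (st.2 * h - q * k) + (q * k - p * k) + (p * k - st.1 * h) := by ring
      have e2 := abs_add_three ((st.2 : ℝ) * h - q * k) (q * k - p * k) (p * k - st.1 * h)
      rw [← e1, abs_mul, abs_of_pos h0, abs_sub_comm ((st.2 : ℝ) * h), abs_sub_comm ((q : ℝ) * k) (p * k),
        abs_sub_comm ((p : ℝ) * k) (st.1 * h)] at e2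
      nlinarith [mul_le_mul_of_nonneg_right h4 h0.le]
    have hg : cut T k p * e * cut T k q ∈ J :=
      TwoSidedIdeal.subset_span ⟨p, q, e, hp p hp', hp q hq', hgap, rfl⟩
    have hc : cut T k p * (T * e - e * T) * cut T k q =
        T * (cut T k p * e * cut T k q) - cut T k p * e * cut T k q * T := by
      rw [mul_sub, sub_mul, ← mul_assoc (cut T k p) T e, ← (cut_commute T k p).eq,
        ← mul_assoc (cut T k p) e T, mul_assoc (cut T k p * e) T, (cut_commute T k q).eq]
      simp only [mul_assoc]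
    have : cut T h st.1 * cut T k p * (T * e - e * T) * (cut T k q * cut T h st.2) =
        cut T h st.1 * (cut T k p * (T * e - e * T) * cut T k q) * cut T h st.2 := by
      simp only [mul_assoc]
    rw [this, hc]
    exact J.mul_mem_right _ _ (J.mul_mem_left _ _
      (J.sub_mem (J.mul_mem_left _ _ hg) (J.mul_mem_right _ _ hg)))
  set near : B → B := fun e => ∑ st ∈ (I ×ˢ I).filter (fun st => |st.2 - st.1| ≤ 3),
    cut T h st.1 * (T * e - e * T) * cut T h st.2 with hnear
  set far : B → B := fun e => ∑ st ∈ (I ×ˢ I).filter (fun st => ¬|st.2 - st.1| ≤ 3),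
    cut T h st.1 * (T * e - e * T) * cut T h st.2 with hfar'
  have hsplit : ∀ e : B, T * e - e * T = near e + far e := by
    intro e
    rw [hnear, hfar', Finset.sum_filter_add_sum_filter_not, Finset.sum_product]
    simp_rw [← Finset.mul_sum, ← Finset.sum_mul, hI, mul_one, one_mul]
  have hmem : ∑ i, a i * far (d i) * b i ∈ J :=
    sum_mem fun i _ => J.mul_mem_right _ _ (J.mul_mem_left _ _ (sum_mem (hfar (d i))))
  refine one_mem_of_near hmem ?_
  have e : 1 - ∑ i, a i * far (d i) * b i = ∑ i, a i * near (d i) * b i := by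
    rw [← h1, ← Finset.sum_sub_distrib]
    refine Finset.sum_congr rfl fun i _ => ?_
    rw [← hd i, hsplit, mul_add, add_mul, add_sub_cancel_right]
  rw [e]
  have hb : ‖∑ i, a i * near (d i) * b i‖ ≤ C * h := by
    refine (norm_sum_le _ _).trans (le_of_le_of_eq (Finset.sum_le_sum fun i _ =>
      (norm_mul_le _ _).trans (mul_le_mul_of_nonneg_right ((norm_mul_le _ _).trans
        (mul_le_mul_of_nonneg_left (norm_near_le hT h0 (d i) I) (norm_nonneg _)))
          (norm_nonneg _))) ?_)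
    rw [Finset.sum_mul]
    exact Finset.sum_congr rfl fun i _ => by ring
  refine hb.trans_lt ?_
  rw [hh, mul_one_div, div_lt_one (by positivity)]
  linarith

end Vale.Agent.P101.Stage2
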